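import Vale.Agent.P045.H84.Main
import Vale.Agent.P045.H84.Statement

namespace Vale.Agent.Results.P045.RyserConjectureFalse

open Vale.Agent.P045.H84 Filter

/-- Ryser's conjecture is false: for every large prime `q` and every `n` there is a
`(q+5)`-partite hypergraph with matching number `n` and covering number `(q+5) n`. -/
theorem result :
    (∃ q₀ : ℕ, ∀ q : ℕ, q₀ ≤ q → q.Prime → ∀ n : ℕ, 1 ≤ n →
      ∃ (V : Type) (_ : Fintype V) (part : V → Fin (q + 5)) (E : Finset (Finset V)),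
        PartiteUniform part E ∧ HasMatchingNumber E n ∧ HasCoveringNumber E ((q + 5) * n)) ∧
    ¬ ∀ (r : ℕ), 2 ≤ r → ∀ (V : Type) [Fintype V] (part : V → Fin r) (E : Finset (Finset V))
      (ν τ : ℕ), PartiteUniform part E → HasMatchingNumber E ν → HasCoveringNumber E τ →
        τ ≤ (r - 1) * ν := by
  classical
  have key : ∃ q₀ : ℕ, ∀ q : ℕ, q₀ ≤ q → q.Prime → ∀ n : ℕ, 1 ≤ n →
      ∃ (V : Type) (_ : Fintype V) (part : V → Fin (q + 5)) (E : Finset (Finset V)),
        PartiteUniform part E ∧ HasMatchingNumber E n ∧ HasCoveringNumber E ((q + 5) * n) := by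
    obtain ⟨q₀, hq₀⟩ := eventually_atTop.mp ryser_counterexample
    refine ⟨q₀, fun q hq hqp n _ => ?_⟩
    obtain ⟨m, H, hne, hmeet, hcov⟩ := hq₀ q hq hqp
    refine exists_copies (P := Fin (q + 5)) (W := fun _ => Fin m) (Fintype.card_fin _)
      (by omega) (fun (e : Fin (q + 5) → Fin m) i => e i) H hne hmeet ?_ n
    intro C hC
    refine (hcov (C.image fun u => (u.1, u.2)) ?_).trans Finset.card_image_le
    intro e he
    obtain ⟨u, hu, i, rfl⟩ := hC e he
    exact ⟨i, Finset.mem_image.mpr ⟨_, hu, rfl⟩⟩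
  refine ⟨key, fun hconj => ?_⟩
  obtain ⟨q₀, h⟩ := key
  obtain ⟨q, hq, hqp⟩ := Nat.exists_infinite_primes q₀
  obtain ⟨V, hV, part, E, hpu, hnu, htau⟩ := h q hq hqp 1 le_rfl
  have := @hconj (q + 5) (by omega) V hV part E 1 _ hpu hnu htau
  omega

end Vale.Agent.Results.P045.RyserConjectureFalse
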